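import Vale.Agent.P159.TM.H77.Pz

/-!
The dyadic flow of `H77/Pz` with energy linear in the number of scales (`32 k` instead of
`3 k²`), and the exponential and fourth moments of the average over a box with this constant.
-/

open Finset

namespace Vale.Agent.P159.TM.H859

open Vale.Agent.P159 Vale.Agent.P159.H353
open Vale.Agent.P159.TM.H60 Vale.Agent.P159.TM.H504 Vale.Agent.P159.TM.H77

lemma sum_Ico_half (j k : ℕ) : ∑ i ∈ Ico j k, (1 / 2 : ℝ) ^ i ≤ 2 * (1 / 2) ^ j := by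
  rcases le_total j k with h | h
  · have h1 : ∑ i ∈ Ico j k, (1 / 2 : ℝ) ^ i = 2 * (1 / 2) ^ j - 2 * (1 / 2) ^ k := by
      induction k, h using Nat.le_induction with
      | base => simp
      | succ k hk ih => rw [Finset.sum_Ico_succ_top hk, ih, pow_succ]; ring
    rw [h1]
    have := pow_pos (show (0 : ℝ) < 1 / 2 by norm_num) k
    linarith
  · rw [Ico_eq_empty_of_le h]
    simp

lemma geo_abs {k : ℕ} {T : Finset ℕ} {j : ℕ} (hT : T ⊆ Ico j k) {c : ℕ → ℝ} {K : ℝ} (hK : 0 ≤ K)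
    (hc : ∀ i ∈ T, |c i| ≤ K * (1 / 2) ^ i) : |∑ i ∈ T, c i| ≤ 2 * K * (1 / 2) ^ j := by
  calc |∑ i ∈ T, c i| ≤ ∑ i ∈ T, K * (1 / 2) ^ i :=
        (abs_sum_le_sum_abs _ _).trans (sum_le_sum hc)
    _ ≤ ∑ i ∈ Ico j k, K * (1 / 2) ^ i :=
        sum_le_sum_of_subset_of_nonneg hT fun i _ _ => by positivity
    _ = K * ∑ i ∈ Ico j k, (1 / 2 : ℝ) ^ i := by rw [mul_sum]
    _ ≤ K * (2 * (1 / 2) ^ j) := mul_le_mul_of_nonneg_left (sum_Ico_half j k) hK
    _ = 2 * K * (1 / 2) ^ j := by ring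

lemma geo_sq {k : ℕ} {T : Finset ℕ} (hT : T ⊆ range k) {c : ℕ → ℝ} {K : ℝ} (hK : 0 ≤ K)
    (hc : ∀ i ∈ T, |c i| ≤ K * (1 / 2) ^ i) :
    (∑ i ∈ T, c i) ^ 2 ≤ 4 * K ^ 2 * ∑ i ∈ T, (1 / 4 : ℝ) ^ i := by
  rcases T.eq_empty_or_nonempty with rfl | hne
  · simp
  · have hj : T.min' hne ∈ T := T.min'_mem hne
    have h1 : |∑ i ∈ T, c i| ≤ 2 * K * (1 / 2) ^ (T.min' hne) := by
      refine geo_abs (k := k) (fun i hi => ?_) hK hc
      rw [mem_Ico]
      exact ⟨T.min'_le i hi, mem_range.1 (hT hi)⟩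
    have h2 : (1 / 4 : ℝ) ^ (T.min' hne) ≤ ∑ i ∈ T, (1 / 4 : ℝ) ^ i :=
      single_le_sum (f := fun i => (1 / 4 : ℝ) ^ i) (fun i _ => by positivity) hj
    calc (∑ i ∈ T, c i) ^ 2 = |∑ i ∈ T, c i| ^ 2 := (sq_abs _).symm
      _ ≤ (2 * K * (1 / 2) ^ (T.min' hne)) ^ 2 := pow_le_pow_left₀ (abs_nonneg _) h1 2
      _ = 4 * K ^ 2 * (1 / 4) ^ (T.min' hne) := by
          rw [mul_pow, mul_pow, ← pow_mul, mul_comm (T.min' hne) 2, pow_mul]
          norm_num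
      _ ≤ _ := mul_le_mul_of_nonneg_left h2 (by positivity)

lemma fam {ι : Type*} [DecidableEq ι] {k : ℕ} {H : ℕ → Finset ι} {HM : Finset ι}
    (hsub : ∀ i < k, H i ⊆ HM) {c : ℕ → ι → ℝ} {N : ℕ} (hN : 1 ≤ N)
    (hc : ∀ i z, |c i z| ≤ 1 / N * (1 / 2) ^ i)
    (hcard : ∀ i, (#(H i) : ℝ) ≤ ((N : ℝ) * 2 ^ (i + 1)) ^ 2) :
    ∃ A : ι → ℝ, (∀ z, |A z| ≤ 2 / N) ∧
      (∀ g : ι → ℝ, ∑ z ∈ HM, A z * g z = ∑ i ∈ range k, ∑ z ∈ H i, c i z * g z) ∧
      ∑ z ∈ HM, A z ^ 2 ≤ 16 * k := by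
  have hN0 : (0 : ℝ) < N := by exact_mod_cast hN
  refine ⟨fun z => ∑ i ∈ (range k).filter (fun i => z ∈ H i), c i z, fun z => ?_, fun g => ?_, ?_⟩
  · have := geo_abs (k := k) (j := 0) (T := (range k).filter (fun i => z ∈ H i))
      (c := fun i => c i z) (K := 1 / N) (by
        intro i hi
        rw [mem_filter, mem_range] at hi
        rw [mem_Ico]
        exact ⟨Nat.zero_le _, hi.1⟩) (by positivity) (fun i _ => hc i z)
    refine this.trans (le_of_eq ?_)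
    simp
    ring
  · have h1 : ∀ z, (∑ i ∈ (range k).filter (fun i => z ∈ H i), c i z) * g z =
        ∑ i ∈ range k, if z ∈ H i then c i z * g z else 0 := by
      intro z
      rw [sum_mul, sum_filter]
    simp only [h1]
    rw [sum_comm]
    refine sum_congr rfl fun i hi => ?_
    rw [sum_ite_mem, inter_eq_right.2 (hsub i (mem_range.1 hi))]
  · have h1 : ∀ z, (∑ i ∈ (range k).filter (fun i => z ∈ H i), c i z) ^ 2 ≤
        4 * (1 / (N : ℝ)) ^ 2 * ∑ i ∈ range k, if z ∈ H i then (1 / 4 : ℝ) ^ i else 0 := by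
      intro z
      rw [← sum_filter]
      exact geo_sq (k := k) (filter_subset _ _) (by positivity) fun i _ => hc i z
    refine (sum_le_sum fun z _ => h1 z).trans ?_
    rw [← mul_sum, sum_comm]
    have h2 : ∀ i ∈ range k, ∑ z ∈ HM, (if z ∈ H i then (1 / 4 : ℝ) ^ i else 0) ≤
        4 * (N : ℝ) ^ 2 := by
      intro i hi
      rw [sum_ite_mem, inter_eq_right.2 (hsub i (mem_range.1 hi)), sum_const, nsmul_eq_mul]
      calc (#(H i) : ℝ) * (1 / 4) ^ i ≤ ((N : ℝ) * 2 ^ (i + 1)) ^ 2 * (1 / 4) ^ i :=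
            mul_le_mul_of_nonneg_right (hcard i) (by positivity)
        _ = 4 * (N : ℝ) ^ 2 * ((4 : ℝ) ^ i * (1 / 4) ^ i) := by
            have : ((2 : ℝ) ^ (i + 1)) ^ 2 = 4 * 4 ^ i := by
              rw [← pow_mul, mul_comm (i + 1) 2, pow_mul]
              norm_num [pow_succ]
              ring
            rw [mul_pow, this]
            ring
        _ = 4 * (N : ℝ) ^ 2 := by
            rw [← mul_pow]
            norm_num
    calc 4 * (1 / (N : ℝ)) ^ 2 * ∑ i ∈ range k, ∑ z ∈ HM,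
          (if z ∈ H i then (1 / 4 : ℝ) ^ i else 0)
        ≤ 4 * (1 / (N : ℝ)) ^ 2 * ∑ i ∈ range k, 4 * (N : ℝ) ^ 2 :=
          mul_le_mul_of_nonneg_left (sum_le_sum h2) (by positivity)
      _ = 16 * k := by
          rw [sum_const, card_range, nsmul_eq_mul]
          field_simp
          ring

lemma Dv_eq (p q : ℤ) (N : ℕ) (a b : ℤ × ℤ → ℝ) (u : ℤ × ℤ → ℝ) : Dv p q N a b u =
    ∑ z ∈ Hz p q N, a z * (u (z.1 + 1, z.2) - u z) +
      ∑ z ∈ Vz p q N, b z * (u (z.1, z.2 + 1) - u z) := by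
  unfold Dv Hz Vz
  rw [sum_product, sum_product]

lemma Fe_eq (p q : ℤ) (N : ℕ) (a b : ℤ × ℤ → ℝ) : Fe p q N a b =
    ∑ z ∈ Hz p q N, a z ^ 2 + ∑ z ∈ Vz p q N, b z ^ 2 := by
  unfold Fe Hz Vz
  rw [sum_product, sum_product]

lemma card_Hz (p q : ℤ) (N : ℕ) : (#(Hz p q N) : ℝ) ≤ (N : ℝ) ^ 2 := by
  unfold Hz
  rw [card_product, Int.card_Ico, Int.card_Ico]
  have h1 : (p + N - 1 - p).toNat ≤ N := by omega
  have h2 : (q + N - q).toNat = N := by omega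
  rw [h2]
  have : (p + N - 1 - p).toNat * N ≤ N * N := Nat.mul_le_mul_right _ h1
  rw [sq]
  exact_mod_cast this

lemma card_Vz (p q : ℤ) (N : ℕ) : (#(Vz p q N) : ℝ) ≤ (N : ℝ) ^ 2 := by
  unfold Vz
  rw [card_product, Int.card_Ico, Int.card_Ico]
  have h1 : (q + N - 1 - q).toNat ≤ N := by omega
  have h2 : (p + N - p).toNat = N := by omega
  rw [h2]
  have : N * (q + N - 1 - q).toNat ≤ N * N := Nat.mul_le_mul_left _ h1
  rw [sq]
  exact_mod_cast this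

lemma Hz_mono (p q : ℤ) {N M : ℕ} (h : N ≤ M) : Hz p q N ⊆ Hz p q M := by
  intro z hz
  unfold Hz at *
  rw [mem_product, mem_Ico, mem_Ico] at *
  omega

lemma Vz_mono (p q : ℤ) {N M : ℕ} (h : N ≤ M) : Vz p q N ⊆ Vz p q M := by
  intro z hz
  unfold Vz at *
  rw [mem_product, mem_Ico, mem_Ico] at *
  omega

/-- **dyadic flow in the plane**, energy linear in `k` -/
theorem dyadic_box (p q : ℤ) {N : ℕ} (hN : 1 ≤ N) (k : ℕ) :
    ∃ a b : ℤ × ℤ → ℝ, (∀ u : ℤ × ℤ → ℝ, Dv p q (N * 2 ^ k) a b u =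
        (∑ z ∈ Bx p q N, u z) / (N : ℝ) ^ 2 -
          (∑ z ∈ Bx p q (N * 2 ^ k), u z) / ((N * 2 ^ k : ℕ) : ℝ) ^ 2) ∧
      (∀ z, |a z| ≤ 2 / N) ∧ (∀ z, |b z| ≤ 2 / N) ∧ Fe p q (N * 2 ^ k) a b ≤ 32 * k := by
  have hN0 : (0 : ℝ) < N := by exact_mod_cast hN
  have hNi : ∀ i : ℕ, 1 ≤ N * 2 ^ i := fun i => Nat.mul_pos hN (by positivity)
  have hle : ∀ i : ℕ, N * 2 ^ i ≤ N * 2 ^ (i + 1) := fun i =>
    Nat.mul_le_mul_left N (Nat.pow_le_pow_right (by norm_num) (Nat.le_succ i))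
  choose a b h1 h2 h3 _h4 using fun i => box_flow p q (hNi i) (hle i)
  have hbd : ∀ i : ℕ, (1 : ℝ) / ((N * 2 ^ i : ℕ) : ℝ) = 1 / N * (1 / 2) ^ i := by
    intro i
    push_cast
    rw [one_div_pow]
    field_simp
  have hc1 : ∀ i : ℕ, (#(Hz p q (N * 2 ^ (i + 1))) : ℝ) ≤ ((N : ℝ) * 2 ^ (i + 1)) ^ 2 := by
    intro i
    have := card_Hz p q (N * 2 ^ (i + 1))
    push_cast at this
    exact this
  have hc2 : ∀ i : ℕ, (#(Vz p q (N * 2 ^ (i + 1))) : ℝ) ≤ ((N : ℝ) * 2 ^ (i + 1)) ^ 2 := by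
    intro i
    have := card_Vz p q (N * 2 ^ (i + 1))
    push_cast at this
    exact this
  have hle' : ∀ i < k, N * 2 ^ (i + 1) ≤ N * 2 ^ k := fun i hi =>
    Nat.mul_le_mul_left N (Nat.pow_le_pow_right (by norm_num) hi)
  obtain ⟨A, A1, A2, A3⟩ := fam (H := fun i => Hz p q (N * 2 ^ (i + 1)))
    (HM := Hz p q (N * 2 ^ k)) (k := k) (fun i hi => Hz_mono p q (hle' i hi)) (c := a) hN
    (fun i z => (h2 i z).trans (le_of_eq (hbd i))) hc1
  obtain ⟨B, B1, B2, B3⟩ := fam (H := fun i => Vz p q (N * 2 ^ (i + 1)))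
    (HM := Vz p q (N * 2 ^ k)) (k := k) (fun i hi => Vz_mono p q (hle' i hi)) (c := b) hN
    (fun i z => (h3 i z).trans (le_of_eq (hbd i))) hc2
  refine ⟨A, B, fun u => ?_, A1, B1, ?_⟩
  · rw [Dv_eq, A2 fun z => u (z.1 + 1, z.2) - u z, B2 fun z => u (z.1, z.2 + 1) - u z,
      ← sum_add_distrib]
    have h5 : ∀ i ∈ range k, ∑ z ∈ Hz p q (N * 2 ^ (i + 1)), a i z * (u (z.1 + 1, z.2) - u z) +
        ∑ z ∈ Vz p q (N * 2 ^ (i + 1)), b i z * (u (z.1, z.2 + 1) - u z) =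
        (fun i : ℕ => (∑ z ∈ Bx p q (N * 2 ^ i), u z) / ((N * 2 ^ i : ℕ) : ℝ) ^ 2) i -
        (fun i : ℕ => (∑ z ∈ Bx p q (N * 2 ^ i), u z) / ((N * 2 ^ i : ℕ) : ℝ) ^ 2) (i + 1) := by
      intro i _
      rw [← Dv_eq, h1 i u]
    rw [sum_congr rfl h5, sum_range_sub']
    simp
  · rw [Fe_eq]
    have : (32 : ℝ) * k = 16 * k + 16 * k := by ring
    rw [this]
    exact add_le_add A3 B3

/-- **dyadic flow**: from a box of side `N` to a box of side `2^k N`, energy `32 k` -/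
theorem dyadic_flow_lin {n : ℕ} {E : Type} [Fintype E] [DecidableEq E]
    {s t : E → ZMod n × ZMod n} {p q : ℤ} {N : ℕ} (hN : 1 ≤ N) (k : ℕ) {j : (ℤ × ℤ) × Bool → E}
    (G : Grid s t p q (N * 2 ^ k) j) (hn : N * 2 ^ k ≤ n) :
    ∃ α : E → ℝ, (∀ u : ZMod n × ZMod n → ℝ,
        bav n p q N u = ∑ e, α e * (u (t e) - u (s e)) + bav n p q (N * 2 ^ k) u) ∧
      (∀ e, |α e| ≤ 2 / N) ∧ ∑ e, α e ^ 2 ≤ 32 * (k : ℝ) := by
  have hN0 : (0 : ℝ) < N := by exact_mod_cast hN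
  obtain ⟨a, b, h1, h2, h3, h4⟩ := dyadic_box p q hN k
  obtain ⟨α, g1, g2, g3⟩ := grid_flow G hn a b (M := 2 / N) (by positivity) h2 h3
  refine ⟨α, fun u => ?_, g2, g3.le.trans h4⟩
  rw [g1 u, h1]
  unfold bav
  ring

section moments

open Vale.Agent.P159.TM.H426

variable {n : ℕ} [NeZero n] {E : Type} [Fintype E] [DecidableEq E]
  {s t : E → ZMod n × ZMod n}

/-- the constant in the exponential moments, linear in `k` -/
noncomputable def cstL (bb : ℝ) (k : ℕ) (m0 : ℝ) (N : ℕ) : ℝ :=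
  32 * (k : ℝ) * bb + 1 / (2 * m0 * ((N : ℝ) * 2 ^ k) ^ 2)

/-- **exponential moments of the average over a box** -/
theorem mgf_box_lin {p q : ℤ} {N : ℕ} (hN : 1 ≤ N) (k : ℕ) {j : (ℤ × ℤ) × Bool → E}
    (G : Grid s t p q (N * 2 ^ k) j) (hn : N * 2 ^ k ≤ n)
    {b : E → ℝ} {bb : ℝ} (hb : ∀ e, 0 ≤ b e) (hbb : ∀ e, b e ≤ bb) (hbb0 : 0 ≤ bb)
    {m : ZMod n × ZMod n → ℝ} {m0 : ℝ} (hm0 : 0 < m0) (hm : ∀ v, m0 ≤ m v) {θ : ℝ}
    (hθ : |θ| * (2 / N) ≤ 1) :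
    (Summable fun h : ZMod n × ZMod n → ℤ => W1h s t (fun e => wI (b e)) (ga m) h *
      Real.exp (θ * bav n p q N fun x => (h x : ℝ))) ∧
    ∑' h : ZMod n × ZMod n → ℤ, W1h s t (fun e => wI (b e)) (ga m) h *
      Real.exp (θ * bav n p q N fun x => (h x : ℝ)) ≤
      Real.exp (θ ^ 2 * cstL bb k m0 N) *
        ∑' h : ZMod n × ZMod n → ℤ, W1h s t (fun e => wI (b e)) (ga m) h := by
  classical
  have hN0 : (0 : ℝ) < N := by exact_mod_cast hN
  obtain ⟨α, h1, h2, h3⟩ := dyadic_flow_lin hN k G hn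
  set N' : ℕ := N * 2 ^ k with hN'
  have hN'0 : (0 : ℝ) < N' := by
    have : 1 ≤ N' := Nat.mul_pos hN (by positivity)
    exact_mod_cast this
  set B : Finset (ZMod n × ZMod n) := (Bx p q N').image (pt n) with hB
  set ρ : ZMod n × ZMod n → ℝ := fun x => if x ∈ B then θ / (N' : ℝ) ^ 2 else 0 with hρ
  have hcB : (#B : ℝ) = (N' : ℝ) ^ 2 := by
    rw [hB, card_image_of_injOn (pt_inj hn), Bx, card_product]
    simp
    ring
  have hkey := bare_le s t hb ∅ (m := m) (fun x _ => lt_of_lt_of_le hm0 (hm x))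
    (fun e => θ * α e) ρ
  have e0 : ∀ (x : ZMod n × ZMod n) (l : ℤ), sA ∅ m x l = ga m x l := by
    intro x l
    unfold sA ga
    rw [if_neg (Finset.notMem_empty x)]
  have e1 : ∀ h : ZMod n × ZMod n → ℤ, ∑ e, θ * α e * ((h (t e) : ℝ) - h (s e)) +
      ∑ x, ρ x * h x = θ * bav n p q N fun x => (h x : ℝ) := by
    intro h
    rw [h1 fun x => (h x : ℝ), mul_add, mul_sum]
    congr 1
    · exact sum_congr rfl fun e _ => by ring
    · rw [hρ]
      simp only [ite_mul, zero_mul]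
      rw [sum_ite_mem, univ_inter, ← mul_sum, hB, sum_image (fun x hx y hy h => pt_inj hn hx hy h)]
      unfold bav
      ring
  simp only [e0, e1] at hkey
  refine ⟨hkey.1, hkey.2.trans ?_⟩
  refine mul_le_mul_of_nonneg_right (Real.exp_le_exp.2 ?_) (tsum_nonneg fun h =>
    mul_nonneg (Finset.prod_nonneg fun e _ => wI_nonneg (hb e) _)
      (Finset.prod_nonneg fun x _ => (Real.exp_pos _).le))
  have h4 : ∑ e, b e * (Real.cosh (θ * α e) - 1) ≤ θ ^ 2 * (32 * (k : ℝ) * bb) := by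
    calc ∑ e, b e * (Real.cosh (θ * α e) - 1) ≤ ∑ e, bb * (θ ^ 2 * α e ^ 2) := by
          refine sum_le_sum fun e _ => ?_
          have h5 : |θ * α e| ≤ 1 := by
            rw [abs_mul]
            exact (mul_le_mul_of_nonneg_left (h2 e) (abs_nonneg θ)).trans hθ
          have h6 := cosh_sub_one_le h5
          rw [mul_pow] at h6
          exact mul_le_mul (hbb e) h6 (by linarith [Real.one_le_cosh (θ * α e)]) hbb0
      _ = bb * (θ ^ 2 * ∑ e, α e ^ 2) := by rw [mul_sum, mul_sum]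
      _ ≤ bb * (θ ^ 2 * (32 * (k : ℝ))) :=
          mul_le_mul_of_nonneg_left (mul_le_mul_of_nonneg_left h3 (sq_nonneg _)) hbb0
      _ = _ := by ring
  have h7 : ∑ x ∈ (∅ : Finset (ZMod n × ZMod n))ᶜ, ρ x ^ 2 / (2 * m x) ≤
      θ ^ 2 * (1 / (2 * m0 * ((N : ℝ) * 2 ^ k) ^ 2)) := by
    rw [compl_empty]
    calc ∑ x, ρ x ^ 2 / (2 * m x) ≤ ∑ x, (if x ∈ B then (θ / (N' : ℝ) ^ 2) ^ 2 / (2 * m0)
            else 0) := by
          refine sum_le_sum fun x _ => ?_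
          rw [hρ]
          simp only
          split_ifs
          · exact div_le_div_of_nonneg_left (sq_nonneg _) (by positivity)
              (by linarith [hm x])
          · simp
      _ = (N' : ℝ) ^ 2 * ((θ / (N' : ℝ) ^ 2) ^ 2 / (2 * m0)) := by
          rw [sum_ite_mem, univ_inter, sum_const, nsmul_eq_mul, hcB]
      _ = θ ^ 2 * (1 / (2 * m0 * ((N : ℝ) * 2 ^ k) ^ 2)) := by
          have : (N : ℝ) * 2 ^ k = N' := by rw [hN']; push_cast; rfl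
          rw [this]
          field_simp
  unfold cstL
  rw [mul_add]
  exact add_le_add h4 h7

/-- **fourth moment of the average over a box** -/
theorem fourth_box_lin {p q : ℤ} {N : ℕ} (hN : 1 ≤ N) (k : ℕ) {j : (ℤ × ℤ) × Bool → E}
    (G : Grid s t p q (N * 2 ^ k) j) (hn : N * 2 ^ k ≤ n)
    {b : E → ℝ} {bb : ℝ} (hb : ∀ e, 0 ≤ b e) (hbb : ∀ e, b e ≤ bb) (hbb0 : 0 ≤ bb)
    {m : ZMod n × ZMod n → ℝ} {m0 : ℝ} (hm0 : 0 < m0) (hm : ∀ v, m0 ≤ m v)
    (hC : 4 ≤ (N : ℝ) ^ 2 * cstL bb k m0 N) :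
    (Summable fun h : ZMod n × ZMod n → ℤ => W1h s t (fun e => wI (b e)) (ga m) h) ∧
    (Summable fun h : ZMod n × ZMod n → ℤ => W1h s t (fun e => wI (b e)) (ga m) h *
      (bav n p q N fun x => (h x : ℝ)) ^ 2) ∧
    (Summable fun h : ZMod n × ZMod n → ℤ => W1h s t (fun e => wI (b e)) (ga m) h *
      (bav n p q N fun x => (h x : ℝ)) ^ 4) ∧
    ∑' h : ZMod n × ZMod n → ℤ, W1h s t (fun e => wI (b e)) (ga m) h *
      (bav n p q N fun x => (h x : ℝ)) ^ 4 ≤ 144 * cstL bb k m0 N ^ 2 *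
        ∑' h : ZMod n × ZMod n → ℤ, W1h s t (fun e => wI (b e)) (ga m) h := by
  have hN0 : (0 : ℝ) < N := by exact_mod_cast hN
  set C := cstL bb k m0 N with hCd
  have hC0 : 0 < C := by
    by_contra h
    have : (N : ℝ) ^ 2 * C ≤ 0 := mul_nonpos_of_nonneg_of_nonpos (by positivity) (not_lt.1 h)
    linarith
  set θ : ℝ := 1 / Real.sqrt C with hθ
  have hsC : 0 < Real.sqrt C := Real.sqrt_pos.2 hC0
  have hθ0 : 0 < θ := by positivity
  have hθ2 : θ ^ 2 * C = 1 := by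
    rw [hθ, div_pow, one_pow, Real.sq_sqrt hC0.le]
    field_simp
  have hθN : |θ| * (2 / N) ≤ 1 := by
    rw [abs_of_pos hθ0, hθ]
    have : 2 ≤ N * Real.sqrt C := by
      have h1 : Real.sqrt (N ^ 2 * C) = N * Real.sqrt C := by
        rw [Real.sqrt_mul (by positivity), Real.sqrt_sq hN0.le]
      rw [← h1]
      exact Real.le_sqrt_of_sq_le (by linarith)
    rw [div_mul_div_comm, one_mul, div_le_one (by positivity)]
    linarith [mul_comm (Real.sqrt C) (N : ℝ)]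
  have hθN' : |(-θ)| * (2 / N) ≤ 1 := by rwa [abs_neg]
  obtain ⟨s1, l1⟩ := mgf_box_lin (s := s) (t := t) hN k G hn hb hbb hbb0 hm0 hm hθN
  obtain ⟨s2, l2⟩ := mgf_box_lin (s := s) (t := t) hN k G hn hb hbb hbb0 hm0 hm hθN'
  have s0 : Summable fun h : ZMod n × ZMod n → ℤ => W1h s t (fun e => wI (b e)) (ga m) h := by
    have := (mgf_box_lin (s := s) (t := t) (θ := 0) hN k G hn hb hbb hbb0 hm0 hm (by simp)).1
    simpa using this
  set W : (ZMod n × ZMod n → ℤ) → ℝ := fun h => W1h s t (fun e => wI (b e)) (ga m) h with hW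
  have W0 : ∀ h, 0 ≤ W h := fun h => mul_nonneg (Finset.prod_nonneg fun e _ =>
    wI_nonneg (hb e) _) (Finset.prod_nonneg fun x _ => (Real.exp_pos _).le)
  set X : (ZMod n × ZMod n → ℤ) → ℝ := fun h => bav n p q N fun x => (h x : ℝ) with hX
  have ss := s1.add s2
  have b4 : ∀ h, W h * X h ^ 4 ≤ 24 * C ^ 2 * (W h * Real.exp (θ * X h) +
      W h * Real.exp (-θ * X h)) := by
    intro h
    have h1 := pow_four_le (θ * X h)
    have h2 : (θ * X h) ^ 4 * C ^ 2 = X h ^ 4 := by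
      calc (θ * X h) ^ 4 * C ^ 2 = (θ ^ 2 * C) ^ 2 * X h ^ 4 := by ring
        _ = X h ^ 4 := by rw [hθ2]; ring
    rw [← h2, show -(θ * X h) = -θ * X h by ring] at *
    have h3 := mul_le_mul_of_nonneg_right h1 (sq_nonneg C)
    have h4 := mul_le_mul_of_nonneg_left h3 (W0 h)
    linarith
  have b2 : ∀ h, W h * X h ^ 2 ≤ 2 * C * (W h * Real.exp (θ * X h) +
      W h * Real.exp (-θ * X h)) := by
    intro h
    have h1 := pow_two_le (θ * X h)
    have h2 : (θ * X h) ^ 2 * C = X h ^ 2 := by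
      calc (θ * X h) ^ 2 * C = (θ ^ 2 * C) * X h ^ 2 := by ring
        _ = X h ^ 2 := by rw [hθ2]; ring
    rw [← h2, show -(θ * X h) = -θ * X h by ring] at *
    have h3 := mul_le_mul_of_nonneg_right h1 hC0.le
    have h4 := mul_le_mul_of_nonneg_left h3 (W0 h)
    linarith
  have S4 : Summable fun h => W h * X h ^ 4 :=
    Summable.of_nonneg_of_le (fun h => mul_nonneg (W0 h) (by positivity)) b4 (ss.mul_left _)
  have S2 : Summable fun h => W h * X h ^ 2 :=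
    Summable.of_nonneg_of_le (fun h => mul_nonneg (W0 h) (by positivity)) b2 (ss.mul_left _)
  refine ⟨s0, S2, S4, ?_⟩
  calc ∑' h, W h * X h ^ 4 ≤ ∑' h, 24 * C ^ 2 * (W h * Real.exp (θ * X h) +
        W h * Real.exp (-θ * X h)) := S4.tsum_le_tsum b4 (ss.mul_left _)
    _ = 24 * C ^ 2 * (∑' h, W h * Real.exp (θ * X h) + ∑' h, W h * Real.exp (-θ * X h)) := by
        rw [tsum_mul_left, s1.tsum_add s2]
    _ ≤ 24 * C ^ 2 * (Real.exp 1 * (∑' h, W h) + Real.exp 1 * ∑' h, W h) := by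
        refine mul_le_mul_of_nonneg_left (add_le_add ?_ ?_) (by positivity)
        · rw [hθ2] at l1; exact l1
        · rw [neg_sq, hθ2] at l2; exact l2
    _ ≤ 144 * C ^ 2 * ∑' h, W h := by
        have h5 : Real.exp 1 ≤ 3 := by linarith [Real.exp_one_lt_d9]
        have h6 : 0 ≤ ∑' h, W h := tsum_nonneg W0
        nlinarith [mul_nonneg (mul_nonneg (sq_nonneg C) h6) (sub_nonneg.2 h5)]

end moments

end Vale.Agent.P159.TM.H859
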