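import Mathlib

/-!
P159, T1, row LOGC (owner helper859): the logarithmic cut-off on the torus `ZMod N × ZMod N`,
with the sharp constant `2π / log L` of its Dirichlet energy.

Mathlib only.
-/

namespace Vale.Agent.P159.TM.H859

open MeasureTheory Set
open scoped ENNReal

/-! ### Euclidean norms -/

/-- Euclidean norm of a lattice point. -/
noncomputable def nz (x : ℤ × ℤ) : ℝ := Real.sqrt ((x.1 : ℝ) ^ 2 + (x.2 : ℝ) ^ 2)

/-- Euclidean norm on `ℝ × ℝ`. -/
noncomputable def nr (y : ℝ × ℝ) : ℝ := Real.sqrt (y.1 ^ 2 + y.2 ^ 2)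

theorem nr_nonneg (y : ℝ × ℝ) : 0 ≤ nr y := Real.sqrt_nonneg _

theorem nz_nonneg (x : ℤ × ℤ) : 0 ≤ nz x := Real.sqrt_nonneg _

theorem nz_eq_nr (x : ℤ × ℤ) : nz x = nr ((x.1 : ℝ), (x.2 : ℝ)) := rfl

theorem nr_sq (y : ℝ × ℝ) : nr y ^ 2 = y.1 ^ 2 + y.2 ^ 2 :=
  Real.sq_sqrt (by positivity)

theorem nz_sq (x : ℤ × ℤ) : nz x ^ 2 = (x.1 : ℝ) ^ 2 + (x.2 : ℝ) ^ 2 :=
  Real.sq_sqrt (by positivity)

theorem nr_add_le (y z : ℝ × ℝ) : nr (y + z) ≤ nr y + nr z := by
  have h1 := nr_nonneg y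
  have h2 := nr_nonneg z
  have h3 := nr_sq y
  have h4 := nr_sq z
  have h5 := nr_sq (y + z)
  have h6 : y.1 * z.1 + y.2 * z.2 ≤ nr y * nr z := by
    have h : (y.1 * z.1 + y.2 * z.2) ^ 2 ≤ (nr y * nr z) ^ 2 := by
      rw [mul_pow, h3, h4]
      nlinarith [sq_nonneg (y.1 * z.2 - y.2 * z.1)]
    exact (abs_le_of_sq_le_sq' h (by positivity)).2
  have h7 : nr (y + z) ^ 2 ≤ (nr y + nr z) ^ 2 := by
    rw [h5]
    simp only [Prod.fst_add, Prod.snd_add]
    nlinarith
  exact (abs_le_of_sq_le_sq' h7 (by positivity)).2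

theorem nr_neg (y : ℝ × ℝ) : nr (-y) = nr y := by
  simp [nr]

theorem abs_nr_sub_le (y z : ℝ × ℝ) : |nr y - nr z| ≤ nr (y - z) := by
  rw [abs_sub_le_iff]
  constructor
  · have := nr_add_le (y - z) z
    rw [sub_add_cancel] at this
    linarith
  · have := nr_add_le (z - y) y
    rw [sub_add_cancel] at this
    have h := nr_neg (y - z)
    rw [neg_sub] at h
    linarith

theorem nr_le_of_abs_le {y : ℝ × ℝ} {c : ℝ} (hc : 0 ≤ c) (h1 : |y.1| ≤ c) (h2 : |y.2| ≤ c) :
    nr y ≤ 2 * c := by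
  have h5 := nr_sq y
  have h6 : y.1 ^ 2 ≤ c ^ 2 := sq_le_sq' (by linarith [(abs_le.1 h1).1]) (abs_le.1 h1).2
  have h7 : y.2 ^ 2 ≤ c ^ 2 := sq_le_sq' (by linarith [(abs_le.1 h2).1]) (abs_le.1 h2).2
  have h8 : nr y ^ 2 ≤ (2 * c) ^ 2 := by rw [h5]; nlinarith
  exact (abs_le_of_sq_le_sq' h8 (by positivity)).2

theorem measurable_nr : Measurable nr := by
  unfold nr
  fun_prop

/-! ### The integral of `1/|y|^2` over an annulus -/

/-- the function `1/|y|²` on the annulus `A ≤ |y| ≤ B` -/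
noncomputable def ann (A B : ℝ) (y : ℝ × ℝ) : ℝ≥0∞ :=
  (Icc A B).indicator (fun s : ℝ => ENNReal.ofReal (1 / s ^ 2)) (nr y)

theorem nr_polar (p : ℝ × ℝ) (hp : 0 ≤ p.1) : nr (polarCoord.symm p) = p.1 := by
  unfold nr
  rw [polarCoord_symm_apply]
  have : (p.1 * Real.cos p.2) ^ 2 + (p.1 * Real.sin p.2) ^ 2 = p.1 ^ 2 := by
    have := Real.sin_sq_add_cos_sq p.2
    nlinarith
  simp only
  rw [this, Real.sqrt_sq hp]

theorem lintegral_ann {A B : ℝ} (hA : 0 < A) (hAB : A ≤ B) :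
    ∫⁻ y : ℝ × ℝ, ann A B y = ENNReal.ofReal (2 * Real.pi * Real.log (B / A)) := by
  rw [← lintegral_comp_polarCoord_symm]
  have hB : 0 < B := hA.trans_le hAB
  have h1 : ∀ p ∈ polarCoord.target, ENNReal.ofReal p.1 • ann A B (polarCoord.symm p)
      = (Icc A B).indicator (fun s : ℝ => ENNReal.ofReal (1 / s)) p.1 * 1 := by
    intro p hp
    rw [polarCoord_target] at hp
    have hp1 : 0 < p.1 := hp.1
    unfold ann
    rw [nr_polar p hp1.le, mul_one]
    by_cases h : p.1 ∈ Icc A B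
    · rw [indicator_of_mem h, indicator_of_mem h, smul_eq_mul, ← ENNReal.ofReal_mul hp1.le]
      congr 1
      field_simp
    · rw [indicator_of_notMem h, indicator_of_notMem h, smul_zero]
  have hmt : MeasurableSet polarCoord.target := by
    rw [polarCoord_target]
    exact measurableSet_Ioi.prod measurableSet_Ioo
  rw [setLIntegral_congr_fun hmt h1, polarCoord_target, Measure.volume_eq_prod,
    ← Measure.prod_restrict]
  have hm : Measurable ((Icc A B).indicator (fun s : ℝ => ENNReal.ofReal (1 / s))) := by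
    apply Measurable.indicator _ measurableSet_Icc
    fun_prop
  rw [lintegral_prod_mul (f := (Icc A B).indicator (fun s : ℝ => ENNReal.ofReal (1 / s)))
    (g := fun _ => 1) hm.aemeasurable aemeasurable_const]
  have h2 : ∫⁻ s in Ioi (0:ℝ), (Icc A B).indicator (fun s : ℝ => ENNReal.ofReal (1 / s)) s
      = ENNReal.ofReal (Real.log (B / A)) := by
    rw [lintegral_indicator measurableSet_Icc, Measure.restrict_restrict measurableSet_Icc]
    have h3 : Icc A B ∩ Ioi (0:ℝ) = Icc A B := by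
      apply inter_eq_left.2
      intro x hx
      exact hA.trans_le hx.1
    rw [h3, ← ofReal_integral_eq_lintegral_ofReal]
    · rw [integral_Icc_eq_integral_Ioc, ← intervalIntegral.integral_of_le hAB,
        integral_one_div_of_pos hA hB]
    · have : ContinuousOn (fun s : ℝ => 1 / s) (Icc A B) := by
        apply ContinuousOn.div continuousOn_const continuousOn_id
        intro x hx
        exact (hA.trans_le hx.1).ne'
      exact this.integrableOn_Icc
    · filter_upwards [ae_restrict_mem measurableSet_Icc] with x hx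
      have : 0 < x := hA.trans_le hx.1
      positivity
  rw [h2]
  simp only [lintegral_const, MeasurableSet.univ, Measure.restrict_apply, univ_inter, one_mul,
    Real.volume_Ioo]
  rw [← ENNReal.ofReal_mul (Real.log_nonneg (by rw [le_div_iff₀ hA]; linarith))]
  congr 1
  ring

/-! ### Comparison of a lattice sum with the integral -/

/-- unit square with lower left corner `x` -/
def sqr (x : ℤ × ℤ) : Set (ℝ × ℝ) :=
  Ico (x.1 : ℝ) (x.1 + 1) ×ˢ Ico (x.2 : ℝ) (x.2 + 1)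

theorem measurableSet_sqr (x : ℤ × ℤ) : MeasurableSet (sqr x) :=
  measurableSet_Ico.prod measurableSet_Ico

theorem volume_sqr (x : ℤ × ℤ) : volume (sqr x) = 1 := by
  unfold sqr
  rw [Measure.volume_eq_prod, Measure.prod_prod, Real.volume_Ico, Real.volume_Ico]
  simp

theorem sqr_disjoint {x x' : ℤ × ℤ} (h : x ≠ x') : Disjoint (sqr x) (sqr x') := by
  rw [Set.disjoint_left]
  rintro y ⟨⟨h1, h2⟩, h3, h4⟩ ⟨⟨h5, h6⟩, h7, h8⟩
  apply h
  have e1 : ⌊y.1⌋ = x.1 := Int.floor_eq_iff.2 ⟨h1, h2⟩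
  have e2 : ⌊y.1⌋ = x'.1 := Int.floor_eq_iff.2 ⟨h5, h6⟩
  have e3 : ⌊y.2⌋ = x.2 := Int.floor_eq_iff.2 ⟨h3, h4⟩
  have e4 : ⌊y.2⌋ = x'.2 := Int.floor_eq_iff.2 ⟨h7, h8⟩
  exact Prod.ext (e1.symm.trans e2) (e3.symm.trans e4)

theorem nr_sqr {x : ℤ × ℤ} {y : ℝ × ℝ} (h : y ∈ sqr x) : |nr y - nz x| ≤ 2 := by
  rw [nz_eq_nr]
  refine (abs_nr_sub_le _ _).trans ?_
  have := @nr_le_of_abs_le (y - ((x.1 : ℝ), (x.2 : ℝ))) 1 zero_le_one ?_ ?_
  · linarith
  · obtain ⟨⟨h1, h2⟩, h3, h4⟩ := h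
    simp only [Prod.fst_sub]
    rw [abs_le]; constructor <;> linarith
  · obtain ⟨⟨h1, h2⟩, h3, h4⟩ := h
    simp only [Prod.snd_sub]
    rw [abs_le]; constructor <;> linarith

/-- Sum–integral comparison with the sharp constant `2π`. -/
theorem sum_inv_sq_le (S : Finset (ℤ × ℤ)) {A B : ℝ} (hA : 0 < A) (hAB : A ≤ B)
    (hS : ∀ x ∈ S, A + 2 ≤ nz x ∧ nz x ≤ B - 2) :
    ∑ x ∈ S, 1 / (nz x + 2) ^ 2 ≤ 2 * Real.pi * Real.log (B / A) := by
  have key : ENNReal.ofReal (∑ x ∈ S, 1 / (nz x + 2) ^ 2)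
      ≤ ENNReal.ofReal (2 * Real.pi * Real.log (B / A)) := by
    rw [← lintegral_ann hA hAB, ENNReal.ofReal_sum_of_nonneg (fun x _ => by positivity)]
    calc ∑ x ∈ S, ENNReal.ofReal (1 / (nz x + 2) ^ 2)
        ≤ ∑ x ∈ S, ∫⁻ y in sqr x, ann A B y := by
          apply Finset.sum_le_sum
          intro x hx
          have h1 : ENNReal.ofReal (1 / (nz x + 2) ^ 2)
              = ∫⁻ _ in sqr x, ENNReal.ofReal (1 / (nz x + 2) ^ 2) := by
            rw [setLIntegral_const, volume_sqr, mul_one]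
          rw [h1]
          apply setLIntegral_mono' (measurableSet_sqr x)
          intro y hy
          have h2 := abs_le.1 (nr_sqr hy)
          have h3 := hS x hx
          have h4 : nr y ∈ Icc A B := ⟨by linarith [h2.1, h3.1], by linarith [h2.2, h3.2]⟩
          unfold ann
          rw [indicator_of_mem h4]
          apply ENNReal.ofReal_le_ofReal
          have h5 : 0 < nr y := hA.trans_le h4.1
          apply one_div_le_one_div_of_le (by positivity)
          have h6 : nr y ≤ nz x + 2 := by linarith [h2.2]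
          exact pow_le_pow_left₀ h5.le h6 2
      _ = ∫⁻ y in ⋃ x ∈ S, sqr x, ann A B y := by
          rw [lintegral_biUnion_finset]
          · intro x _ x' _ h
            exact sqr_disjoint h
          · intro x _
            exact measurableSet_sqr x
      _ ≤ ∫⁻ y, ann A B y := setLIntegral_le_lintegral _ _
  have hlog : 0 ≤ 2 * Real.pi * Real.log (B / A) := by
    have : 0 ≤ Real.log (B / A) := Real.log_nonneg (by rw [le_div_iff₀ hA]; linarith)
    positivity
  exact (ENNReal.ofReal_le_ofReal_iff hlog).1 key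

/-! ### The radial profile -/

/-- radial profile of the logarithmic cut-off: `1` on `ρ ≤ r`, `0` on `ρ ≥ L r`,
`1 - log (ρ/r) / log L` in between -/
noncomputable def prof (r L ρ : ℝ) : ℝ :=
  max 0 (min 1 (1 - (Real.log (max ρ r) - Real.log r) / Real.log L))

theorem prof_nonneg (r L ρ : ℝ) : 0 ≤ prof r L ρ := le_max_left _ _

theorem prof_le_one (r L ρ : ℝ) : prof r L ρ ≤ 1 :=
  max_le zero_le_one (min_le_left _ _)

theorem prof_eq_one {r L ρ : ℝ} (h : ρ ≤ r) : prof r L ρ = 1 := by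
  unfold prof
  rw [max_eq_right h]
  simp

theorem prof_eq_zero {r L ρ : ℝ} (hr : 0 < r) (hL : 1 < L) (h : L * r ≤ ρ) :
    prof r L ρ = 0 := by
  unfold prof
  have hlL : 0 < Real.log L := Real.log_pos hL
  have h1 : r ≤ ρ := by nlinarith
  rw [max_eq_left h1]
  apply max_eq_left
  refine (min_le_right _ _).trans ?_
  have h2 : Real.log (L * r) ≤ Real.log ρ := Real.log_le_log (by positivity) h
  rw [Real.log_mul (by positivity) (by positivity)] at h2
  rw [sub_nonpos, one_le_div hlL]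
  linarith

theorem abs_prof_sub_le {r L ρ ρ' : ℝ} (hL : 1 < L) :
    |prof r L ρ - prof r L ρ'| ≤ |Real.log (max ρ r) - Real.log (max ρ' r)| / Real.log L := by
  have hlL : 0 < Real.log L := Real.log_pos hL
  unfold prof
  have h1 := abs_max_sub_max_le_abs
    (min 1 (1 - (Real.log (max ρ r) - Real.log r) / Real.log L))
    (min 1 (1 - (Real.log (max ρ' r) - Real.log r) / Real.log L)) 0
  rw [max_comm _ 0, max_comm _ 0] at h1
  have h2 : ∀ a b : ℝ, |min 1 a - min 1 b| ≤ |a - b| := by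
    intro a b
    refine (abs_min_sub_min_le_max 1 a 1 b).trans ?_
    simp
  have h2 := h2 (1 - (Real.log (max ρ r) - Real.log r) / Real.log L)
    (1 - (Real.log (max ρ' r) - Real.log r) / Real.log L)
  refine (h1.trans h2).trans (le_of_eq ?_)
  rw [← abs_of_pos hlL, ← abs_div, abs_of_pos hlL, ← abs_neg]
  congr 1
  ring

/-- log is `1/min`-Lipschitz -/
theorem abs_log_sub_log_le {a b m : ℝ} (hm : 0 < m) (ha : m ≤ a) (hb : m ≤ b) :
    |Real.log a - Real.log b| ≤ |a - b| / m := by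
  have key : ∀ a b : ℝ, m ≤ a → m ≤ b → Real.log a - Real.log b ≤ |a - b| / m := by
    intro a b ha hb
    have ha' : 0 < a := hm.trans_le ha
    have hb' : 0 < b := hm.trans_le hb
    rw [← Real.log_div ha'.ne' hb'.ne']
    have h1 := Real.log_le_sub_one_of_pos (div_pos ha' hb')
    have h2 : a / b - 1 = (a - b) / b := by field_simp
    rw [h2] at h1
    refine h1.trans ?_
    calc (a - b) / b ≤ |a - b| / b := by gcongr; exact le_abs_self _
      _ ≤ |a - b| / m := by gcongr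
  rw [abs_le]
  constructor
  · have := key b a hb ha
    rw [abs_sub_comm] at this
    linarith
  · exact key a b ha hb

theorem abs_prof_sub_le' {r L ρ ρ' : ℝ} (hr : 0 < r) (hL : 1 < L) :
    |prof r L ρ - prof r L ρ'| ≤ |ρ - ρ'| / (r * Real.log L) := by
  have hlL : 0 < Real.log L := Real.log_pos hL
  refine (abs_prof_sub_le hL).trans ?_
  rw [← div_div]
  refine div_le_div_of_nonneg_right ?_ hlL.le
  refine (abs_log_sub_log_le hr (le_max_right _ _) (le_max_right _ _)).trans ?_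
  exact div_le_div_of_nonneg_right (abs_max_sub_max_le_abs ρ ρ' r) hr.le

/-- pointwise bound of an increment through the squares of the radii -/
theorem abs_prof_sub_le_sq {r L ρ ρ' m : ℝ} (hr : 0 < r) (hL : 1 < L) (hm : 0 < m)
    (h : m ≤ ρ) (h' : m ≤ ρ') :
    |prof r L ρ - prof r L ρ'| ≤ |ρ ^ 2 - ρ' ^ 2| / (2 * m ^ 2) / Real.log L := by
  have hlL : 0 < Real.log L := Real.log_pos hL
  refine (abs_prof_sub_le hL).trans ?_
  gcongr
  have hρ : 0 < ρ := hm.trans_le h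
  have hρ' : 0 < ρ' := hm.trans_le h'
  have h1 : ∀ t : ℝ, 0 < t → Real.log (max t r) = max (Real.log t) (Real.log r) := by
    intro t ht
    rcases le_total t r with h2 | h2
    · rw [max_eq_right h2, max_eq_right (Real.log_le_log ht h2)]
    · rw [max_eq_left h2, max_eq_left (Real.log_le_log hr h2)]
  rw [h1 ρ hρ, h1 ρ' hρ']
  refine (abs_max_sub_max_le_abs _ _ _).trans ?_
  have h3 := abs_log_sub_log_le (a := ρ ^ 2) (b := ρ' ^ 2) (m := m ^ 2) (by positivity)
    (pow_le_pow_left₀ hm.le h 2) (pow_le_pow_left₀ hm.le h' 2)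
  rw [Real.log_pow, Real.log_pow, Nat.cast_ofNat, ← mul_sub, abs_mul, abs_two] at h3
  rw [mul_comm 2 (m ^ 2), ← div_div, le_div_iff₀ two_pos]
  linarith

/-! ### The lattice increments -/

/-- the two unit vectors -/
def e1 : ℤ × ℤ := (1, 0)
/-- the two unit vectors -/
def e2 : ℤ × ℤ := (0, 1)

theorem nz_sub_le (x x' : ℤ × ℤ) : |nz x - nz x'| ≤ nz (x - x') := by
  have h := abs_nr_sub_le ((x.1 : ℝ), (x.2 : ℝ)) ((x'.1 : ℝ), (x'.2 : ℝ))
  have h2 : nz (x - x') = nr (((x.1 : ℝ), (x.2 : ℝ)) - ((x'.1 : ℝ), (x'.2 : ℝ))) := by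
    rw [nz_eq_nr]
    congr 1
    simp
  rw [h2]
  exact h

theorem nz_e1 : nz e1 = 1 := by simp [nz, e1]

theorem nz_e2 : nz e2 = 1 := by simp [nz, e2]

theorem nz_add_e1_sub (x : ℤ × ℤ) : |nz (x + e1) - nz x| ≤ 1 := by
  have := nz_sub_le (x + e1) x
  rwa [add_sub_cancel_left, nz_e1] at this

theorem nz_add_e2_sub (x : ℤ × ℤ) : |nz (x + e2) - nz x| ≤ 1 := by
  have := nz_sub_le (x + e2) x
  rwa [add_sub_cancel_left, nz_e2] at this

/-- energy density of a function on `ℤ²` at `x` -/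
noncomputable def dens (F : ℤ × ℤ → ℝ) (x : ℤ × ℤ) : ℝ :=
  (F (x + e1) - F x) ^ 2 + (F (x + e2) - F x) ^ 2

/-- Increment bounds for the radial cut-off on `ℤ²`. -/
theorem dens_le {r L : ℝ} (hr : 10 ≤ r) (hL : 1 < L) (x : ℤ × ℤ) (hx : r - 1 ≤ nz x) :
    dens (fun z => prof r L (nz z)) x
      ≤ (1 + 8 / r) ^ 2 * (1 / (nz x + 2) ^ 2) / Real.log L ^ 2 := by
  have hlL : 0 < Real.log L := Real.log_pos hL
  set ρ := nz x with hρ
  have hρ9 : 9 ≤ ρ := by linarith
  have hm : 0 < ρ - 1 := by linarith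
  have a1 := abs_le.1 (nz_add_e1_sub x)
  have a2 := abs_le.1 (nz_add_e2_sub x)
  have hsq := nz_sq x
  have hs1 : nz (x + e1) ^ 2 - ρ ^ 2 = 2 * (x.1 : ℝ) + 1 := by
    rw [nz_sq, hρ, nz_sq]
    simp [e1]
    ring
  have hs2 : nz (x + e2) ^ 2 - ρ ^ 2 = 2 * (x.2 : ℝ) + 1 := by
    rw [nz_sq, hρ, nz_sq]
    simp [e2]
    ring
  have b1 := abs_prof_sub_le_sq (r := r) (L := L) (ρ := nz (x + e1)) (ρ' := ρ) (m := ρ - 1)
    (by linarith) hL hm (by linarith [a1.1]) (by linarith)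
  have b2 := abs_prof_sub_le_sq (r := r) (L := L) (ρ := nz (x + e2)) (ρ' := ρ) (m := ρ - 1)
    (by linarith) hL hm (by linarith [a2.1]) (by linarith)
  rw [hs1] at b1
  rw [hs2] at b2
  have c1 : (prof r L (nz (x + e1)) - prof r L ρ) ^ 2
      ≤ (2 * (x.1 : ℝ) + 1) ^ 2 / (4 * (ρ - 1) ^ 4) / Real.log L ^ 2 := by
    rw [← sq_abs]
    refine (pow_le_pow_left₀ (abs_nonneg _) b1 2).trans (le_of_eq ?_)
    rw [div_pow, div_pow, sq_abs]
    ring
  have c2 : (prof r L (nz (x + e2)) - prof r L ρ) ^ 2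
      ≤ (2 * (x.2 : ℝ) + 1) ^ 2 / (4 * (ρ - 1) ^ 4) / Real.log L ^ 2 := by
    rw [← sq_abs]
    refine (pow_le_pow_left₀ (abs_nonneg _) b2 2).trans (le_of_eq ?_)
    rw [div_pow, div_pow, sq_abs]
    ring
  have hsum : (2 * (x.1 : ℝ) + 1) ^ 2 + (2 * (x.2 : ℝ) + 1) ^ 2 ≤ 4 * (ρ + 1) ^ 2 := by
    have h1 : (x.1 : ℝ) ≤ ρ := by
      have : (x.1 : ℝ) ^ 2 ≤ ρ ^ 2 := by rw [hρ, nz_sq]; nlinarith [sq_nonneg (x.2 : ℝ)]
      exact (abs_le_of_sq_le_sq' this (by linarith)).2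
    have h2 : (x.2 : ℝ) ≤ ρ := by
      have : (x.2 : ℝ) ^ 2 ≤ ρ ^ 2 := by rw [hρ, nz_sq]; nlinarith [sq_nonneg (x.1 : ℝ)]
      exact (abs_le_of_sq_le_sq' this (by linarith)).2
    rw [← hρ] at hsq
    nlinarith
  have hmain : dens (fun z => prof r L (nz z)) x
      ≤ (ρ + 1) ^ 2 / (ρ - 1) ^ 4 / Real.log L ^ 2 := by
    unfold dens
    refine (add_le_add c1 c2).trans ?_
    rw [← add_div, ← add_div]
    refine div_le_div_of_nonneg_right ?_ (by positivity)
    have h4 : (0:ℝ) < (ρ - 1) ^ 4 := by positivity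
    calc ((2 * (x.1 : ℝ) + 1) ^ 2 + (2 * (x.2 : ℝ) + 1) ^ 2) / (4 * (ρ - 1) ^ 4)
        ≤ (4 * (ρ + 1) ^ 2) / (4 * (ρ - 1) ^ 4) := div_le_div_of_nonneg_right hsum (by positivity)
      _ = (ρ + 1) ^ 2 / (ρ - 1) ^ 4 := by
        rw [mul_div_mul_left _ _ (by norm_num : (4:ℝ) ≠ 0)]
  refine hmain.trans ?_
  gcongr
  have hr0 : 0 < r := by linarith
  have hq : (ρ + 1) * (ρ + 2) ≤ (1 + 8 / r) * (ρ - 1) ^ 2 := by
    -- `(5ρ+1)/(ρ-1)² ≤ 8/r`
    have h1 : (5 * ρ + 1) * r ≤ 8 * (ρ - 1) ^ 2 := by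
      have h2 : r ≤ ρ + 1 := by linarith
      have h3 : (5 * ρ + 1) * r ≤ (5 * ρ + 1) * (ρ + 1) :=
        mul_le_mul_of_nonneg_left h2 (by linarith)
      have h5 : (5 * ρ + 1) * (ρ + 1) ≤ 8 * (ρ - 1) ^ 2 := by
        nlinarith [sq_nonneg (ρ - 9)]
      exact h3.trans h5
    have h2 : (5 * ρ + 1) ≤ 8 / r * (ρ - 1) ^ 2 := by
      rw [div_mul_eq_mul_div, le_div_iff₀ hr0]
      exact h1
    have h3 : (ρ + 1) * (ρ + 2) = (ρ - 1) ^ 2 + (5 * ρ + 1) := by ring
    rw [h3, add_mul, one_mul]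
    linarith
  have h4 : (ρ + 1) ^ 2 * (ρ + 2) ^ 2 ≤ (1 + 8 / r) ^ 2 * (ρ - 1) ^ 4 := by
    have := pow_le_pow_left₀ (by positivity) hq 2
    calc (ρ + 1) ^ 2 * (ρ + 2) ^ 2 = ((ρ + 1) * (ρ + 2)) ^ 2 := by ring
      _ ≤ ((1 + 8 / r) * (ρ - 1) ^ 2) ^ 2 := this
      _ = _ := by ring
  rw [mul_one_div, div_le_div_iff₀ (by positivity) (by positivity)]
  exact h4

/-- The density vanishes off the annulus. -/
theorem dens_eq_zero {r L : ℝ} (hr : 0 < r) (hL : 1 < L) (x : ℤ × ℤ)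
    (hx : ¬ (r - 1 ≤ nz x ∧ nz x ≤ L * r + 1)) :
    dens (fun z => prof r L (nz z)) x = 0 := by
  have a1 := abs_le.1 (nz_add_e1_sub x)
  have a2 := abs_le.1 (nz_add_e2_sub x)
  unfold dens
  by_cases h : r - 1 ≤ nz x
  · have h' : L * r + 1 < nz x := by
      by_contra h2
      exact hx ⟨h, not_lt.1 h2⟩
    simp only
    rw [prof_eq_zero hr hL (by linarith : L * r ≤ nz x),
      prof_eq_zero hr hL (by linarith [a1.1] : L * r ≤ nz (x + e1)),
      prof_eq_zero hr hL (by linarith [a2.1] : L * r ≤ nz (x + e2))]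
    simp
  · simp only
    rw [prof_eq_one (by linarith : nz x ≤ r),
      prof_eq_one (by linarith [a1.2] : nz (x + e1) ≤ r),
      prof_eq_one (by linarith [a2.2] : nz (x + e2) ≤ r)]
    simp

/-! ### The torus -/

variable {N : ℕ}

/-- centred representative of a point of the torus -/
def rep (x : ZMod N × ZMod N) : ℤ × ℤ := (x.1.valMinAbs, x.2.valMinAbs)

/-- Euclidean norm on the torus -/
noncomputable def tn (x : ZMod N × ZMod N) : ℝ := nz (rep x)

theorem rep_injective [NeZero N] : Function.Injective (rep (N := N)) := by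
  intro x y h
  simp only [rep, Prod.mk.injEq] at h
  exact Prod.ext (ZMod.injective_valMinAbs h.1) (ZMod.injective_valMinAbs h.2)

theorem tn_nonneg (x : ZMod N × ZMod N) : 0 ≤ tn x := nz_nonneg _

theorem nz_mono {x y : ℤ × ℤ} (h1 : x.1.natAbs ≤ y.1.natAbs) (h2 : x.2.natAbs ≤ y.2.natAbs) :
    nz x ≤ nz y := by
  unfold nz
  apply Real.sqrt_le_sqrt
  have h : ∀ a b : ℤ, a.natAbs ≤ b.natAbs → (a : ℝ) ^ 2 ≤ (b : ℝ) ^ 2 := by
    intro a b hab
    have := Int.natAbs_le_iff_sq_le.1 hab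
    exact_mod_cast this
  exact add_le_add (h _ _ h1) (h _ _ h2)

theorem tn_le_nz [NeZero N] {x : ZMod N × ZMod N} {z : ℤ × ℤ} (h1 : ((z.1 : ℤ) : ZMod N) = x.1)
    (h2 : ((z.2 : ℤ) : ZMod N) = x.2) : tn x ≤ nz z := by
  unfold tn rep
  apply nz_mono
  · apply ZMod.natAbs_min_of_le_div_two N
    · rw [ZMod.coe_valMinAbs, h1]
    · exact ZMod.natAbs_valMinAbs_le _
  · apply ZMod.natAbs_min_of_le_div_two N
    · rw [ZMod.coe_valMinAbs, h2]
    · exact ZMod.natAbs_valMinAbs_le _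

theorem tn_add_le [NeZero N] (x y : ZMod N × ZMod N) : tn (x + y) ≤ tn x + tn y := by
  refine (tn_le_nz (z := rep x + rep y) ?_ ?_).trans ?_
  · simp [rep]
  · simp [rep]
  · unfold tn
    have := nr_add_le (((rep x).1 : ℝ), ((rep x).2 : ℝ)) (((rep y).1 : ℝ), ((rep y).2 : ℝ))
    rw [nz_eq_nr, nz_eq_nr, nz_eq_nr]
    refine le_trans (le_of_eq ?_) this
    congr 1
    simp

theorem tn_neg [NeZero N] (x : ZMod N × ZMod N) : tn (-x) = tn x := by
  apply le_antisymm
  · refine (tn_le_nz (z := -rep x) ?_ ?_).trans (le_of_eq ?_)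
    · simp [rep]
    · simp [rep]
    · simp [tn, nz]
  · refine (tn_le_nz (z := -rep (-x)) ?_ ?_).trans (le_of_eq ?_)
    · simp [rep]
    · simp [rep]
    · simp [tn, nz]

theorem abs_tn_sub_le [NeZero N] (x y : ZMod N × ZMod N) : |tn x - tn y| ≤ tn (x - y) := by
  rw [abs_sub_le_iff]
  constructor
  · have := tn_add_le (x - y) y
    rw [sub_add_cancel] at this
    linarith
  · have := tn_add_le (y - x) x
    rw [sub_add_cancel] at this
    have h := tn_neg (x - y)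
    rw [neg_sub] at h
    linarith

/-- **Logarithmic cut-off on the torus** around `x0`: `1` on `|x-x0| ≤ r`, `0` on `|x-x0| ≥ L r`. -/
noncomputable def logCut (x0 : ZMod N × ZMod N) (r L : ℝ) (x : ZMod N × ZMod N) : ℝ :=
  prof r L (tn (x - x0))

theorem logCut_nonneg (x0 : ZMod N × ZMod N) (r L : ℝ) (x : ZMod N × ZMod N) :
    0 ≤ logCut x0 r L x := prof_nonneg _ _ _

theorem logCut_le_one (x0 : ZMod N × ZMod N) (r L : ℝ) (x : ZMod N × ZMod N) :
    logCut x0 r L x ≤ 1 := prof_le_one _ _ _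

theorem logCut_eq_one {x0 : ZMod N × ZMod N} {r L : ℝ} {x : ZMod N × ZMod N}
    (h : tn (x - x0) ≤ r) : logCut x0 r L x = 1 := prof_eq_one h

theorem logCut_eq_zero {x0 : ZMod N × ZMod N} {r L : ℝ} {x : ZMod N × ZMod N} (hr : 0 < r)
    (hL : 1 < L) (h : L * r ≤ tn (x - x0)) : logCut x0 r L x = 0 := prof_eq_zero hr hL h

/-- Lipschitz bound. -/
theorem logCut_lip [NeZero N] (x0 : ZMod N × ZMod N) {r L : ℝ} (hr : 0 < r) (hL : 1 < L)
    (x y : ZMod N × ZMod N) :
    |logCut x0 r L x - logCut x0 r L y| ≤ tn (x - y) / (r * Real.log L) := by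
  have hlL : 0 < Real.log L := Real.log_pos hL
  refine (abs_prof_sub_le' hr hL).trans ?_
  refine div_le_div_of_nonneg_right ?_ (by positivity)
  have := abs_tn_sub_le (x - x0) (y - x0)
  rwa [sub_sub_sub_cancel_right] at this

/-- Dirichlet energy on the torus. -/
noncomputable def dirE [NeZero N] (F : ZMod N × ZMod N → ℝ) : ℝ :=
  ∑ x : ZMod N × ZMod N, ((F (x + (1, 0)) - F x) ^ 2 + (F (x + (0, 1)) - F x) ^ 2)

theorem valMinAbs_add_one [NeZero N] (a : ZMod N) :
    (a + 1).valMinAbs = a.valMinAbs + 1 ∨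
      ((N : ℝ) / 2 - 1 ≤ |(a.valMinAbs : ℝ)| ∧ (N : ℝ) / 2 - 1 ≤ |((a + 1).valMinAbs : ℝ)|) := by
  have h0 := a.valMinAbs_mem_Ioc
  by_cases h : (a.valMinAbs + 1) * 2 ≤ (N : ℤ)
  · left
    rw [ZMod.valMinAbs_spec]
    refine ⟨by simp, ?_, h⟩
    have := h0.1
    omega
  · right
    have hN : 0 < N := Nat.pos_of_ne_zero (NeZero.ne N)
    have h2 : (a + 1).valMinAbs = a.valMinAbs + 1 - N := by
      rw [ZMod.valMinAbs_spec]
      refine ⟨by simp, ?_, ?_⟩
      · have := h0.1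
        omega
      · have := h0.2
        omega
    have h3 : (N : ℤ) < (a.valMinAbs + 1) * 2 := not_le.1 h
    have h4 : a.valMinAbs * 2 ≤ N := h0.2
    have h3' : (N : ℝ) < ((a.valMinAbs : ℝ) + 1) * 2 := by exact_mod_cast h3
    have h4' : (a.valMinAbs : ℝ) * 2 ≤ N := by exact_mod_cast h4
    constructor
    · exact le_trans (by linarith) (le_abs_self _)
    · rw [h2]
      push_cast
      exact le_trans (by linarith) (neg_le_abs _)

theorem abs_fst_le_nz (x : ℤ × ℤ) : |(x.1 : ℝ)| ≤ nz x := by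
  rw [← Real.sqrt_sq_eq_abs]
  exact Real.sqrt_le_sqrt (by nlinarith [sq_nonneg (x.2 : ℝ)])

theorem abs_snd_le_nz (x : ℤ × ℤ) : |(x.2 : ℝ)| ≤ nz x := by
  rw [← Real.sqrt_sq_eq_abs]
  exact Real.sqrt_le_sqrt (by nlinarith [sq_nonneg (x.1 : ℝ)])

theorem torus_step1 [NeZero N] {r L : ℝ} (hr : 0 < r) (hL : 1 < L) (hN : 2 * (L * r + 1) ≤ N)
    (x : ZMod N × ZMod N) :
    (prof r L (tn (x + (1, 0))) - prof r L (tn x)) ^ 2
      ≤ (prof r L (nz (rep x + e1)) - prof r L (nz (rep x))) ^ 2 := by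
  rcases valMinAbs_add_one x.1 with h | ⟨h1, h2⟩
  · apply le_of_eq
    have : rep (x + (1, 0)) = rep x + e1 := by
      simp only [rep, e1, Prod.fst_add, Prod.snd_add, add_zero, Prod.mk_add_mk, h]
    unfold tn
    rw [this]
  · have a1 : L * r ≤ tn x := by
      refine le_trans (le_trans (by linarith) h1) (abs_fst_le_nz (rep x))
    have a2 : L * r ≤ tn (x + (1, 0)) := by
      have h3 := abs_fst_le_nz (rep (x + (1, 0)))
      have h4 : (rep (x + (1, 0))).1 = (x.1 + 1).valMinAbs := by simp [rep]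
      rw [h4] at h3
      exact le_trans (le_trans (by linarith) h2) h3
    rw [prof_eq_zero hr hL a1, prof_eq_zero hr hL a2]
    simp only [sub_self, ne_eq, OfNat.ofNat_ne_zero, not_false_eq_true, zero_pow]
    positivity

theorem torus_step2 [NeZero N] {r L : ℝ} (hr : 0 < r) (hL : 1 < L) (hN : 2 * (L * r + 1) ≤ N)
    (x : ZMod N × ZMod N) :
    (prof r L (tn (x + (0, 1))) - prof r L (tn x)) ^ 2
      ≤ (prof r L (nz (rep x + e2)) - prof r L (nz (rep x))) ^ 2 := by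
  rcases valMinAbs_add_one x.2 with h | ⟨h1, h2⟩
  · apply le_of_eq
    have : rep (x + (0, 1)) = rep x + e2 := by
      simp only [rep, e2, Prod.fst_add, Prod.snd_add, add_zero, Prod.mk_add_mk, h]
    unfold tn
    rw [this]
  · have a1 : L * r ≤ tn x := by
      refine le_trans (le_trans (by linarith) h1) (abs_snd_le_nz (rep x))
    have a2 : L * r ≤ tn (x + (0, 1)) := by
      have h3 := abs_snd_le_nz (rep (x + (0, 1)))
      have h4 : (rep (x + (0, 1))).2 = (x.2 + 1).valMinAbs := by simp [rep]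
      rw [h4] at h3
      exact le_trans (le_trans (by linarith) h2) h3
    rw [prof_eq_zero hr hL a1, prof_eq_zero hr hL a2]
    simp only [sub_self, ne_eq, OfNat.ofNat_ne_zero, not_false_eq_true, zero_pow]
    positivity

theorem numer1 {r L : ℝ} (hr : 10 ≤ r) (hL : 2 ≤ L) :
    Real.log ((L * r + 3) / (r - 3)) ≤ (1 + 14 / r) * Real.log L := by
  have hA : 0 < r - 3 := by linarith
  have hL0 : 0 < L := by linarith
  have hr0 : 0 < r := by linarith
  have hlog : 0.69 ≤ Real.log L := by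
    have h1 := Real.log_two_gt_d9
    have h2 := Real.log_le_log two_pos hL
    linarith
  have h1 : (L * r + 3) / (r - 3) = L * ((L * r + 3) / (L * (r - 3))) := by
    field_simp
  have hq : 0 < (L * r + 3) / (L * (r - 3)) := by positivity
  rw [h1, Real.log_mul hL0.ne' hq.ne']
  have h2 := Real.log_le_sub_one_of_pos hq
  have h3 : (L * r + 3) / (L * (r - 3)) - 1 ≤ 14 / r * 0.69 := by
    rw [sub_le_iff_le_add, div_le_iff₀ (by positivity)]
    have h4 : (14 / r * 0.69 + 1) * (L * (r - 3)) = L * ((r - 3) + 9.66 * ((r - 3) / r)) := by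
      field_simp
      ring
    rw [h4]
    have h5 : (0.7 : ℝ) ≤ (r - 3) / r := by
      rw [le_div_iff₀ hr0]; linarith
    nlinarith
  have h6 : 14 / r * 0.69 ≤ 14 / r * Real.log L := by
    apply mul_le_mul_of_nonneg_left hlog (by positivity)
  nlinarith

theorem numer2 {r : ℝ} (hr : 10 ≤ r) : (1 + 8 / r) ^ 2 * (1 + 14 / r) ≤ 1 + 68 / r := by
  have hr0 : 0 < r := by linarith
  have hu : 1 / r ≤ 1 / 10 := one_div_le_one_div_of_le (by norm_num) hr
  have hu0 : 0 < 1 / r := by positivity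
  have e1 : 8 / r = 8 * (1 / r) := by ring
  have e2 : 14 / r = 14 * (1 / r) := by ring
  have e3 : 68 / r = 68 * (1 / r) := by ring
  rw [e1, e2, e3]
  set u := 1 / r
  have h2 : u ^ 2 ≤ 1 / 10 * u := by nlinarith
  have h3 : u ^ 3 ≤ 1 / 100 * u := by nlinarith [mul_nonneg hu0.le hu0.le]
  nlinarith

/-- **Row LOGC: the Dirichlet energy of the log cut-off, sharp constant.** -/
theorem logCut_energy [NeZero N] (x0 : ZMod N × ZMod N) {r L : ℝ} (hr : 10 ≤ r) (hL : 2 ≤ L)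
    (hN : 2 * (L * r + 1) ≤ N) :
    dirE (logCut x0 r L) ≤ (1 + 68 / r) * (2 * Real.pi / Real.log L) := by
  classical
  have hr0 : 0 < r := by linarith
  have hL1 : 1 < L := by linarith
  have hlL : 0 < Real.log L := Real.log_pos hL1
  have h1 : dirE (logCut x0 r L) = ∑ x : ZMod N × ZMod N,
      ((prof r L (tn (x + (1, 0))) - prof r L (tn x)) ^ 2
        + (prof r L (tn (x + (0, 1))) - prof r L (tn x)) ^ 2) := by
    unfold dirE logCut
    rw [← Equiv.sum_comp (Equiv.addRight x0)]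
    apply Finset.sum_congr rfl
    intro x _
    simp only [Equiv.coe_addRight, add_sub_cancel_right]
    rw [show x + x0 + (1, 0) - x0 = x + (1, 0) by abel, show x + x0 + (0, 1) - x0 = x + (0, 1) by abel]
  set S : Finset (ℤ × ℤ) := (Finset.univ.image (rep (N := N))).filter
    (fun z => r - 1 ≤ nz z ∧ nz z ≤ L * r + 1) with hS
  have h2 : dirE (logCut x0 r L) ≤ ∑ z ∈ S, dens (fun z => prof r L (nz z)) z := by
    rw [h1, hS, Finset.sum_filter_of_ne]
    · rw [Finset.sum_image (fun x _ y _ h => rep_injective h)]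
      apply Finset.sum_le_sum
      intro x _
      exact add_le_add (torus_step1 hr0 hL1 hN x) (torus_step2 hr0 hL1 hN x)
    · intro z _ hz
      by_contra h
      exact hz (dens_eq_zero hr0 hL1 z h)
  refine h2.trans ?_
  have h3 : ∑ z ∈ S, dens (fun z => prof r L (nz z)) z
      ≤ ∑ z ∈ S, (1 + 8 / r) ^ 2 * (1 / (nz z + 2) ^ 2) / Real.log L ^ 2 := by
    apply Finset.sum_le_sum
    intro z hz
    rw [hS, Finset.mem_filter] at hz
    exact dens_le hr hL1 z hz.2.1
  refine h3.trans ?_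
  have h4 : ∑ z ∈ S, (1 + 8 / r) ^ 2 * (1 / (nz z + 2) ^ 2) / Real.log L ^ 2
      = (1 + 8 / r) ^ 2 / Real.log L ^ 2 * ∑ z ∈ S, 1 / (nz z + 2) ^ 2 := by
    rw [Finset.mul_sum]
    apply Finset.sum_congr rfl
    intro z _
    ring
  rw [h4]
  have h5 := sum_inv_sq_le S (A := r - 3) (B := L * r + 3) (by linarith) (by nlinarith) (by
    intro z hz
    rw [hS, Finset.mem_filter] at hz
    constructor
    · linarith [hz.2.1]
    · linarith [hz.2.2])
  have h6 := numer1 hr hL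
  have hpi := Real.pi_pos
  calc (1 + 8 / r) ^ 2 / Real.log L ^ 2 * ∑ z ∈ S, 1 / (nz z + 2) ^ 2
      ≤ (1 + 8 / r) ^ 2 / Real.log L ^ 2 * (2 * Real.pi * ((1 + 14 / r) * Real.log L)) := by
        apply mul_le_mul_of_nonneg_left _ (by positivity)
        refine h5.trans ?_
        apply mul_le_mul_of_nonneg_left h6 (by positivity)
    _ = ((1 + 8 / r) ^ 2 * (1 + 14 / r)) * (2 * Real.pi / Real.log L) := by
        field_simp
    _ ≤ (1 + 68 / r) * (2 * Real.pi / Real.log L) := by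
        apply mul_le_mul_of_nonneg_right (numer2 hr) (by positivity)

/-- sum of the cubes of the increments -/
theorem logCut_cube [NeZero N] (x0 : ZMod N × ZMod N) {r L : ℝ} (hr : 10 ≤ r) (hL : 2 ≤ L)
    (hN : 2 * (L * r + 1) ≤ N) :
    ∑ x : ZMod N × ZMod N, (|logCut x0 r L (x + (1, 0)) - logCut x0 r L x| ^ 3
        + |logCut x0 r L (x + (0, 1)) - logCut x0 r L x| ^ 3)
      ≤ (1 / (r * Real.log L)) * ((1 + 68 / r) * (2 * Real.pi / Real.log L)) := by
  have hr0 : 0 < r := by linarith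
  have hL1 : 1 < L := by linarith
  have hlL : 0 < Real.log L := Real.log_pos hL1
  refine le_trans ?_ (mul_le_mul_of_nonneg_left (logCut_energy x0 hr hL hN) (by positivity))
  unfold dirE
  rw [Finset.mul_sum]
  apply Finset.sum_le_sum
  intro x _
  have hs : ∀ d : ZMod N × ZMod N, tn d ≤ 1 →
      |logCut x0 r L (x + d) - logCut x0 r L x| ^ 3
        ≤ 1 / (r * Real.log L) * (logCut x0 r L (x + d) - logCut x0 r L x) ^ 2 := by
    intro d hd
    have h := logCut_lip x0 hr0 hL1 (x + d) x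
    rw [add_sub_cancel_left] at h
    have h' : |logCut x0 r L (x + d) - logCut x0 r L x| ≤ 1 / (r * Real.log L) :=
      h.trans (div_le_div_of_nonneg_right hd (by positivity))
    rw [pow_succ, sq_abs, mul_comm]
    exact mul_le_mul_of_nonneg_right h' (sq_nonneg _)
  rw [mul_add]
  apply add_le_add
  · apply hs
    refine (tn_le_nz (z := e1) ?_ ?_).trans (le_of_eq nz_e1) <;> simp [e1]
  · apply hs
    refine (tn_le_nz (z := e2) ?_ ?_).trans (le_of_eq nz_e2) <;> simp [e2]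

end Vale.Agent.P159.TM.H859
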