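import Mathlib

/-!
# P159 / T1: the closing recursion (C6 + (A5)(ii)), spec-free

`Mn p y = max 2 ⌈(log (1/y))^p⌉₊` is the number of scales of one step at activity `y`.

* `drift_sum` : the total drift `∑_j C * M_j * √y_j`, `y_j = y / 2^j`, is `≤ d` for `y ≤ y0(C,p,d)`.
* `rec_main` : iteration of an abstract one-step implication.
* `choice` : choice of the power `p`.
-/

open Real Filter Topology Finset

namespace Vale.Agent.P159.TM.H859

/-- side ratio of one step at activity `y` -/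
noncomputable def Mn (p : ℕ) (y : ℝ) : ℕ := max 2 ⌈(Real.log (1 / y)) ^ p⌉₊

theorem two_le_Mn (p : ℕ) (y : ℝ) : 2 ≤ Mn p y := le_max_left _ _

theorem le_Mn (p : ℕ) (y : ℝ) : (Real.log (1 / y)) ^ p ≤ (Mn p y : ℝ) := by
  refine (Nat.le_ceil _).trans ?_
  exact_mod_cast le_max_right _ _

theorem Mn_le (p : ℕ) {y : ℝ} (hy : 0 < y) (hy1 : y ≤ 1) :
    (Mn p y : ℝ) ≤ (Real.log (1 / y)) ^ p + 2 := by
  have h0 : 0 ≤ Real.log (1 / y) := Real.log_nonneg (by rw [le_div_iff₀ hy]; linarith)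
  have h1 : (0 : ℝ) ≤ (Real.log (1 / y)) ^ p := pow_nonneg h0 _
  unfold Mn
  rcases le_total 2 ⌈(Real.log (1 / y)) ^ p⌉₊ with h | h
  · rw [max_eq_right h]
    have := Nat.ceil_lt_add_one h1
    linarith
  · rw [max_eq_left h]
    push_cast
    linarith

/-- `(log (1/y))^p ≤ K_p * y^(-1/4)` on `(0,1]`. -/
theorem log_pow_le (p : ℕ) : ∃ K : ℝ, 0 ≤ K ∧ ∀ y : ℝ, 0 < y → y ≤ 1 →
    (Real.log (1 / y)) ^ p ≤ K * y ^ (-(1 / 4 : ℝ)) := by
  -- `log x ≤ x^ε / ε`, with `ε = 1/(4(p+1))`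
  set e : ℝ := 1 / (4 * ((p : ℝ) + 1)) with he
  have hp1 : (0 : ℝ) < (p : ℝ) + 1 := by positivity
  have he0 : 0 < e := by rw [he]; positivity
  refine ⟨(1 / e) ^ p, by positivity, ?_⟩
  intro y hy hy1
  have hx : (1 : ℝ) ≤ 1 / y := by rw [le_div_iff₀ hy]; linarith
  have hx0 : (0 : ℝ) ≤ 1 / y := by positivity
  have h0 : 0 ≤ Real.log (1 / y) := Real.log_nonneg hx
  have h1 : Real.log (1 / y) ≤ (1 / y) ^ e / e := Real.log_le_rpow_div hx0 he0
  calc (Real.log (1 / y)) ^ p ≤ ((1 / y) ^ e / e) ^ p := pow_le_pow_left₀ h0 h1 p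
    _ = (1 / e) ^ p * ((1 / y) ^ e) ^ p := by rw [div_eq_mul_inv, mul_pow, one_div]; ring
    _ ≤ (1 / e) ^ p * y ^ (-(1 / 4 : ℝ)) := by
        refine mul_le_mul_of_nonneg_left ?_ (by positivity)
        rw [← Real.rpow_natCast ((1 / y) ^ e) p, ← Real.rpow_mul hx0]
        have : y ^ (-(1 / 4 : ℝ)) = (1 / y) ^ (1 / 4 : ℝ) := by
          rw [one_div y, Real.inv_rpow hy.le, Real.rpow_neg hy.le]
        rw [this]
        refine Real.rpow_le_rpow_of_exponent_le hx ?_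
        rw [he]
        rw [div_mul_eq_mul_div, div_le_div_iff₀ (by positivity) (by norm_num)]
        nlinarith

/-- `M(y) √y ≤ K y^(1/4)` -/
theorem Mn_sqrt_le (p : ℕ) : ∃ K : ℝ, 0 < K ∧ ∀ y : ℝ, 0 < y → y ≤ 1 →
    (Mn p y : ℝ) * √y ≤ K * y ^ (1 / 4 : ℝ) := by
  obtain ⟨K, hK, h⟩ := log_pow_le p
  refine ⟨K + 2, by linarith, ?_⟩
  intro y hy hy1
  have h1 := Mn_le p hy hy1
  have h2 := h y hy hy1
  have h3 : (1 : ℝ) ≤ y ^ (-(1 / 4 : ℝ)) :=
    Real.one_le_rpow_of_pos_of_le_one_of_nonpos hy hy1 (by norm_num)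
  have h4 : (Mn p y : ℝ) ≤ (K + 2) * y ^ (-(1 / 4 : ℝ)) := by nlinarith
  calc (Mn p y : ℝ) * √y ≤ (K + 2) * y ^ (-(1 / 4 : ℝ)) * √y :=
        mul_le_mul_of_nonneg_right h4 (Real.sqrt_nonneg _)
    _ = (K + 2) * (y ^ (-(1 / 4 : ℝ)) * y ^ (1 / 2 : ℝ)) := by
        rw [Real.sqrt_eq_rpow]; ring
    _ = (K + 2) * y ^ (1 / 4 : ℝ) := by
        rw [← Real.rpow_add hy]; norm_num

/-- one sequence bound: `M_j √y_j ≤ K y^(1/4) r^j`, `r = (1/2)^(1/4) < 1`. -/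
theorem drift_term (p : ℕ) : ∃ K : ℝ, 0 < K ∧ ∀ y : ℝ, 0 < y → y ≤ 1 → ∀ j : ℕ,
    (Mn p (y / 2 ^ j) : ℝ) * √(y / 2 ^ j) ≤ K * y ^ (1 / 4 : ℝ) * ((1 / 2 : ℝ) ^ (1 / 4 : ℝ)) ^ j := by
  obtain ⟨K, hK, h⟩ := Mn_sqrt_le p
  refine ⟨K, hK, ?_⟩
  intro y hy hy1 j
  have hj : (0 : ℝ) < y / 2 ^ j := by positivity
  have hj1 : y / 2 ^ j ≤ 1 := by
    rw [div_le_one (by positivity)]
    exact hy1.trans (one_le_pow₀ (by norm_num))
  refine (h _ hj hj1).trans (le_of_eq ?_)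
  rw [div_eq_mul_inv, ← inv_pow, Real.mul_rpow hy.le (by positivity), mul_assoc]
  congr 2
  rw [← Real.rpow_natCast, ← Real.rpow_mul (by norm_num), ← Real.rpow_natCast,
    ← Real.rpow_mul (by norm_num)]
  rw [mul_comm (j : ℝ), one_div (2 : ℝ)]

/-- the total drift is small -/
theorem drift_sum (C : ℝ) (p : ℕ) {d : ℝ} (hd : 0 < d) : ∃ y0 : ℝ, 0 < y0 ∧ y0 < 1 ∧
    ∀ y : ℝ, 0 < y → y ≤ y0 → ∀ n : ℕ,
      ∑ j ∈ range n, C * (Mn p (y / 2 ^ j) : ℝ) * √(y / 2 ^ j) ≤ d := by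
  obtain ⟨K, hK, h⟩ := drift_term p
  set r : ℝ := (1 / 2 : ℝ) ^ (1 / 4 : ℝ) with hr
  have hr0 : 0 ≤ r := by positivity
  have hr1 : r < 1 := Real.rpow_lt_one (by norm_num) (by norm_num) (by norm_num)
  -- choose `y0` with `|C| K y0^(1/4) / (1-r) ≤ d`
  set q : ℝ := d * (1 - r) / ((|C| + 1) * K) with hq
  have hC1 : (0 : ℝ) < |C| + 1 := by positivity
  have hq0 : 0 < q := by
    rw [hq]; exact div_pos (mul_pos hd (by linarith)) (mul_pos hC1 hK)
  refine ⟨min (1 / 2) (q ^ (4 : ℕ)), by positivity, ?_, ?_⟩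
  · exact lt_of_le_of_lt (min_le_left _ _) (by norm_num)
  intro y hy hyy n
  have hy1 : y ≤ 1 := (hyy.trans (min_le_left _ _)).trans (by norm_num)
  have hyq : y ^ (1 / 4 : ℝ) ≤ q := by
    have h1 : y ≤ q ^ (4 : ℕ) := hyy.trans (min_le_right _ _)
    have h2 : y ^ (1 / 4 : ℝ) ≤ (q ^ (4 : ℕ)) ^ (1 / 4 : ℝ) :=
      Real.rpow_le_rpow hy.le h1 (by norm_num)
    refine h2.trans (le_of_eq ?_)
    rw [← Real.rpow_natCast, ← Real.rpow_mul hq0.le]
    norm_num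
  have hsum : ∑ j ∈ range n, r ^ j ≤ 1 / (1 - r) := by
    rw [geom_sum_eq hr1.ne]
    rw [← neg_div_neg_eq, neg_sub, neg_sub]
    refine div_le_div_of_nonneg_right ?_ (by linarith)
    have : 0 ≤ r ^ n := pow_nonneg hr0 _
    linarith
  calc ∑ j ∈ range n, C * (Mn p (y / 2 ^ j) : ℝ) * √(y / 2 ^ j)
      ≤ ∑ j ∈ range n, (|C| + 1) * (K * q * r ^ j) := by
        refine Finset.sum_le_sum fun j _ => ?_
        have hM : 0 ≤ (Mn p (y / 2 ^ j) : ℝ) * √(y / 2 ^ j) := by positivity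
        have h1 := h y hy hy1 j
        have h2 : K * y ^ (1 / 4 : ℝ) * r ^ j ≤ K * q * r ^ j :=
          mul_le_mul_of_nonneg_right (mul_le_mul_of_nonneg_left hyq hK.le) (pow_nonneg hr0 _)
        calc C * (Mn p (y / 2 ^ j) : ℝ) * √(y / 2 ^ j)
            = C * ((Mn p (y / 2 ^ j) : ℝ) * √(y / 2 ^ j)) := by ring
          _ ≤ (|C| + 1) * ((Mn p (y / 2 ^ j) : ℝ) * √(y / 2 ^ j)) :=
              mul_le_mul_of_nonneg_right (by linarith [le_abs_self C]) hM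
          _ ≤ (|C| + 1) * (K * q * r ^ j) :=
              mul_le_mul_of_nonneg_left (h1.trans h2) hC1.le
    _ = (|C| + 1) * (K * q) * ∑ j ∈ range n, r ^ j := by
        rw [Finset.mul_sum]; refine Finset.sum_congr rfl fun j _ => by ring
    _ ≤ (|C| + 1) * (K * q) * (1 / (1 - r)) :=
        mul_le_mul_of_nonneg_left hsum (by positivity)
    _ = d := by
        have h1r : (1 - r) ≠ 0 := by linarith
        rw [hq]
        field_simp

/-- **Abstract iteration.** `Good s y a`: state `s` (torus, mass, ...), activity bound `y`, slope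
bound `a`; `eps s` the mass.  One step divides `y` by 2, the mass by `M²`, and moves the slope by at
most `C M √y`. -/
theorem rec_main (C : ℝ) (p : ℕ) {d : ℝ} (hd : 0 < d) : ∃ y0 : ℝ, 0 < y0 ∧ y0 < 1 ∧
    ∀ {σ : Type*} (eps : σ → ℝ) (Good : σ → ℝ → ℝ → Prop) (ys amax : ℝ),
      (∀ s, 0 < eps s) →
      (∀ s y a, Good s y a → 0 < y → y ≤ ys → a ≤ amax →
        ∃ s', eps s' = eps s / (Mn p y : ℝ) ^ 2 ∧ ∃ a', a' ≤ a + C * (Mn p y : ℝ) * √y ∧
          Good s' (y / 2) a') →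
      ∀ s y a, Good s y a → 0 < y → y ≤ ys → y ≤ y0 → a ≤ amax - d →
        ∀ j : ℕ, ∃ s' a', Good s' (y / 2 ^ j) a' ∧ a' ≤ a + d / 2 ∧ a' ≤ amax - d / 2 ∧
          eps s' ≤ eps s / 4 ^ j := by
  obtain ⟨y0, hy0, hy01, hsum⟩ := drift_sum C p (half_pos hd)
  refine ⟨y0, hy0, hy01, ?_⟩
  intro σ eps Good ys amax heps step s y a hG hy hys hyy0 ha j
  have key : ∀ j : ℕ, ∃ s' a', Good s' (y / 2 ^ j) a' ∧
      a' ≤ a + ∑ i ∈ range j, C * (Mn p (y / 2 ^ i) : ℝ) * √(y / 2 ^ i) ∧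
      eps s' ≤ eps s / 4 ^ j := by
    intro j
    induction j with
    | zero => exact ⟨s, a, by simpa using hG, by simp, by simp⟩
    | succ j ih =>
      obtain ⟨s', a', hG', ha', he'⟩ := ih
      have hyj : 0 < y / 2 ^ j := by positivity
      have hyj1 : y / 2 ^ j ≤ y := div_le_self hy.le (one_le_pow₀ (by norm_num))
      have haj : a' ≤ amax := by
        have := hsum y hy hyy0 j
        linarith
      obtain ⟨s'', he'', a'', ha'', hG''⟩ := step s' _ a' hG' hyj (hyj1.trans hys) haj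
      refine ⟨s'', a'', ?_, ?_, ?_⟩
      · have : y / 2 ^ (j + 1) = y / 2 ^ j / 2 := by rw [pow_succ]; field_simp
        rw [this]; exact hG''
      · rw [Finset.sum_range_succ]; linarith
      · rw [he'']
        have hM : (4 : ℝ) ≤ (Mn p (y / 2 ^ j) : ℝ) ^ 2 := by
          have : (2 : ℝ) ≤ (Mn p (y / 2 ^ j) : ℝ) := by exact_mod_cast two_le_Mn p _
          nlinarith
        have h4 : (0 : ℝ) < 4 ^ j := by positivity
        calc eps s' / (Mn p (y / 2 ^ j) : ℝ) ^ 2 ≤ eps s' / 4 :=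
              div_le_div_of_nonneg_left (heps s').le (by norm_num) hM
          _ ≤ (eps s / 4 ^ j) / 4 := by linarith
          _ = eps s / 4 ^ (j + 1) := by rw [pow_succ]; field_simp
  obtain ⟨s', a', hG', ha', he'⟩ := key j
  have := hsum y hy hyy0 j
  exact ⟨s', a', hG', by linarith, by linarith, he'⟩

/-- 112's form of the slope drift is of the form used in `rec_main`. -/
theorem drift_form {C a amax t : ℝ} (hC : 0 ≤ C) (ht : 0 ≤ t) (ht1 : t ≤ 1) (ha : a ≤ amax) :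
    (a + C * t) * (1 + C * t) + C * t ≤ a + (2 * C + C * amax + C ^ 2) * t := by
  have h1 : C * a * t ≤ C * amax * t :=
    mul_le_mul_of_nonneg_right (mul_le_mul_of_nonneg_left ha hC) ht
  have h2 : C ^ 2 * t * t ≤ C ^ 2 * t * 1 :=
    mul_le_mul_of_nonneg_left ht1 (by positivity)
  nlinarith

theorem t_form {M y : ℝ} (hM : 0 < M) (hy : 0 < y) :
    M ^ 2 * y / (M * √y) = M * √y := by
  have hs : √y * √y = y := Real.mul_self_sqrt hy.le
  have hs0 : 0 < √y := Real.sqrt_pos.mpr hy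
  rw [div_eq_iff (by positivity)]
  nlinarith [hs]

/-- `M √y ≤ 1` for small `y`. -/
theorem Mn_sqrt_le_one (p : ℕ) : ∃ y1 : ℝ, 0 < y1 ∧ y1 < 1 ∧ ∀ y : ℝ, 0 < y → y ≤ y1 →
    (Mn p y : ℝ) * √y ≤ 1 := by
  obtain ⟨y0, h0, h1, h⟩ := drift_sum 1 p (one_pos)
  refine ⟨y0, h0, h1, fun y hy hyy => ?_⟩
  have := h y hy hyy 1
  simpa using this

/-- **Choice of the power `p`.** -/
theorem choice {s : ℝ} (hs : 2 < s) (K P : ℝ) {C1 : ℝ} (hC1 : 0 ≤ C1) :
    ∃ p : ℕ, ∃ n0 : ℝ, 1 ≤ n0 ∧ ∀ n : ℝ, n0 ≤ n → ∀ M : ℝ, n ^ p ≤ M →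
      K * n ^ P * (C1 * n / M) ^ s * M ^ 2 ≤ 1 / 2 := by
  have hs2 : 0 < s - 2 := by linarith
  obtain ⟨p, hp⟩ := exists_nat_gt ((P + s + 1) / (s - 2))
  have hp' : P + s + 1 < (p : ℝ) * (s - 2) := by
    rwa [div_lt_iff₀ hs2] at hp
  set B : ℝ := |K| * C1 ^ s with hB
  have hB0 : 0 ≤ B := by positivity
  refine ⟨p, max 1 (2 * B), le_max_left _ _, ?_⟩
  intro n hn M hM
  have hn1 : 1 ≤ n := (le_max_left _ _).trans hn
  have hn0 : 0 < n := by linarith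
  have hnB : 2 * B ≤ n := (le_max_right _ _).trans hn
  have hnp : (0 : ℝ) < n ^ p := by positivity
  have hM0 : 0 < M := hnp.trans_le hM
  have e1 : (C1 * n / M) ^ s * M ^ 2 = C1 ^ s * n ^ s * M ^ (2 - s) := by
    rw [Real.div_rpow (by positivity) hM0.le, Real.mul_rpow hC1 hn0.le,
      Real.rpow_sub hM0, ← Real.rpow_natCast M 2]
    push_cast
    field_simp
  have e2 : M ^ (2 - s) ≤ (n ^ p) ^ (2 - s) :=
    Real.rpow_le_rpow_of_nonpos hnp hM (by linarith)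
  have e3 : (n ^ p : ℝ) ^ (2 - s) = n ^ ((p : ℝ) * (2 - s)) := by
    rw [← Real.rpow_natCast, ← Real.rpow_mul hn0.le]
  calc K * n ^ P * (C1 * n / M) ^ s * M ^ 2
      = K * n ^ P * ((C1 * n / M) ^ s * M ^ 2) := by ring
    _ ≤ |K| * n ^ P * ((C1 * n / M) ^ s * M ^ 2) := by
        refine mul_le_mul_of_nonneg_right ?_ (by positivity)
        exact mul_le_mul_of_nonneg_right (le_abs_self K) (by positivity)
    _ = |K| * n ^ P * (C1 ^ s * n ^ s * M ^ (2 - s)) := by rw [e1]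
    _ ≤ |K| * n ^ P * (C1 ^ s * n ^ s * n ^ ((p : ℝ) * (2 - s))) := by
        refine mul_le_mul_of_nonneg_left ?_ (by positivity)
        refine mul_le_mul_of_nonneg_left ?_ (by positivity)
        rw [← e3]; exact e2
    _ = B * n ^ (P + s + (p : ℝ) * (2 - s)) := by
        rw [Real.rpow_add hn0, Real.rpow_add hn0, hB]; ring
    _ ≤ B * n ^ (-1 : ℝ) := by
        refine mul_le_mul_of_nonneg_left ?_ hB0
        refine Real.rpow_le_rpow_of_exponent_le hn1 ?_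
        nlinarith
    _ ≤ 1 / 2 := by
        rw [Real.rpow_neg_one, ← div_eq_mul_inv, div_le_iff₀ hn0]
        linarith

/-- the same with an additional error `K' M^(-4)` and the integer `Mn`. -/
theorem choice_Mn {s : ℝ} (hs : 2 < s) (K K' P : ℝ) {C1 : ℝ} (hC1 : 0 ≤ C1) :
    ∃ p : ℕ, ∃ y1 : ℝ, 0 < y1 ∧ y1 < 1 ∧ ∀ y : ℝ, 0 < y → y ≤ y1 →
      (K * (log (1 / y)) ^ P * (C1 * log (1 / y) / (Mn p y : ℝ)) ^ s + K' / (Mn p y : ℝ) ^ 3)
        * (Mn p y : ℝ) ^ 2 * y ≤ y / 2 := by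
  obtain ⟨p, n0, hn0, h⟩ := choice hs (2 * K) P hC1
  -- enlarge `p` so that the power is at least 1 and take `n` large
  refine ⟨p + 1, min (1 / 2) (Real.exp (-(max (max n0 1) (4 * |K'|)))), ?_, ?_, ?_⟩
  · positivity
  · exact lt_of_le_of_lt (min_le_left _ _) (by norm_num)
  intro y hy hyy
  set n : ℝ := log (1 / y) with hn
  have hnn : max (max n0 1) (4 * |K'|) ≤ n := by
    have h1 : y ≤ Real.exp (-(max (max n0 1) (4 * |K'|))) := hyy.trans (min_le_right _ _)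
    have h2 : log y ≤ -(max (max n0 1) (4 * |K'|)) := by
      rw [← Real.log_exp (-(max (max n0 1) (4 * |K'|)))]
      exact Real.log_le_log hy h1
    rw [hn, one_div, Real.log_inv]
    linarith
  have hn1 : 1 ≤ n := ((le_max_right _ _).trans (le_max_left _ _)).trans hnn
  have hnn0 : n0 ≤ n := ((le_max_left _ _).trans (le_max_left _ _)).trans hnn
  have hnK : 4 * |K'| ≤ n := (le_max_right _ _).trans hnn
  have hM : n ^ (p + 1) ≤ (Mn (p + 1) y : ℝ) := le_Mn (p + 1) y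
  have hMp : n ^ p ≤ (Mn (p + 1) y : ℝ) :=
    (pow_le_pow_right₀ hn1 (Nat.le_succ p)).trans hM
  have hMn : n ≤ (Mn (p + 1) y : ℝ) := by
    refine le_trans ?_ hM
    calc n = n ^ 1 := (pow_one n).symm
      _ ≤ n ^ (p + 1) := pow_le_pow_right₀ hn1 (by omega)
  set M : ℝ := (Mn (p + 1) y : ℝ) with hMdef
  have hM0 : 0 < M := by linarith
  have h1 := h n hnn0 M hMp
  have h2 : K' / M ^ 3 * M ^ 2 ≤ 1 / 4 := by
    have : K' / M ^ 3 * M ^ 2 = K' / M := by field_simp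
    rw [this, div_le_iff₀ hM0]
    have := le_abs_self K'
    linarith
  have h3 : K * n ^ P * (C1 * n / M) ^ s * M ^ 2 ≤ 1 / 4 := by linarith
  have h4 : (K * n ^ P * (C1 * n / M) ^ s + K' / M ^ 3) * M ^ 2 ≤ 1 / 2 := by
    rw [add_mul]; linarith
  calc (K * n ^ P * (C1 * n / M) ^ s + K' / M ^ 3) * M ^ 2 * y ≤ 1 / 2 * y :=
        mul_le_mul_of_nonneg_right h4 hy.le
    _ = y / 2 := by ring

end Vale.Agent.P159.TM.H859
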